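import Mathlib

namespace Vale.P262

open Finset

/-- Every finite sequence in the Euclidean unit ball of `ℝ^d` has signs for which all prefix sums
have norm at most `s`. The least such `s` is `σ(d)`. -/
def SignedPrefixBound (d : ℕ) (s : ℝ) : Prop :=
  ∀ (N : ℕ) (v : ℕ → EuclideanSpace ℝ (Fin d)), (∀ i < N, ‖v i‖ ≤ 1) →
    ∃ ε : ℕ → ℝ, (∀ i, ε i = 1 ∨ ε i = -1) ∧
      ∀ k ≤ N, ‖∑ i ∈ range k, ε i • v i‖ ≤ s

noncomputable def F (m : ℕ) (α β : ℝ) (i t : ℕ) : ℝ :=
  if i < m then (if t = i then 1 else 0)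
  else if i = m then (if t = m then α else if t = m + 1 then β else 0)
  else if i = m + 1 then (if t = m then α else if t = m + 1 then -β else 0)
  else (if t = m then 1 else 0)

noncomputable def V (m : ℕ) (α β : ℝ) (i : ℕ) : EuclideanSpace ℝ (Fin (m+2)) :=
  WithLp.toLp 2 (fun t => F m α β i t.val)

theorem normsq_split (m : ℕ) (x : EuclideanSpace ℝ (Fin (m+2))) :
    ‖x‖^2 = ∑ t : Fin m, (x t.castSucc.castSucc)^2 + (x (Fin.last m).castSucc)^2
      + (x (Fin.last (m+1)))^2 := by
  rw [EuclideanSpace.real_norm_sq_eq, Fin.sum_univ_castSucc, Fin.sum_univ_castSucc]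

theorem coord (m : ℕ) (α β : ℝ) (ε : ℕ → ℝ) (k : ℕ) (t : Fin (m+2)) :
    (∑ i ∈ range k, ε i • V m α β i) t = ∑ i ∈ range k, ε i * F m α β i t.val := by
  induction k with
  | zero => simp
  | succ k ih =>
    rw [Finset.sum_range_succ, Finset.sum_range_succ, ← ih]
    simp [V]

theorem V_norm (m : ℕ) (α β : ℝ) (h : α^2 + β^2 = 1) (i : ℕ) : ‖V m α β i‖ ≤ 1 := by
  have h1 : ‖V m α β i‖^2 ≤ 1 := by
    rw [normsq_split]
    have c0 : ∀ t : Fin (m+2), (V m α β i) t = F m α β i t.val := fun t => rfl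
    simp only [c0]
    by_cases hi : i < m
    · have e1 : ∑ t : Fin m, (F m α β i t.castSucc.castSucc.val)^2 = 1 := by
        rw [Finset.sum_eq_single (⟨i, hi⟩ : Fin m)]
        · simp [F, hi]
        · intro b _ hb
          have : b.val ≠ i := fun h => hb (Fin.ext h)
          simp [F, hi, this]
        · intro h; exact absurd (mem_univ _) h
      have e2 : F m α β i (Fin.last m).castSucc.val = 0 := by
        have : m ≠ i := by omega
        simp [F, hi, this]
      have e3 : F m α β i (Fin.last (m+1)).val = 0 := by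
        have : m + 1 ≠ i := by omega
        simp [F, hi, this]
      rw [e1, e2, e3]; norm_num
    · have e1 : ∑ t : Fin m, (F m α β i t.castSucc.castSucc.val)^2 = 0 := by
        apply Finset.sum_eq_zero
        intro b _
        have h1 : b.val ≠ m := by have := b.2; omega
        have h2 : b.val ≠ m + 1 := by have := b.2; omega
        simp [F, hi, h1, h2]
      rw [e1]
      by_cases h1 : i = m
      · subst h1
        simp [F]; linarith
      · by_cases h2 : i = m + 1
        · subst h2
          simp [F]; linarith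
        · simp [F, hi, h1, h2]
  have h2 : 0 ≤ ‖V m α β i‖ := norm_nonneg _
  nlinarith

theorem sum_low (m : ℕ) (α β : ℝ) (ε : ℕ → ℝ) (t : ℕ) (ht : t < m) :
    ∑ i ∈ range m, ε i * F m α β i t = ε t := by
  rw [Finset.sum_eq_single t]
  · simp [F, ht]
  · intro b hb hbt
    have : t ≠ b := fun h => hbt h.symm
    simp [F, mem_range.mp hb, this]
  · intro h; exact absurd (mem_range.mpr ht) h

theorem sum_high (m : ℕ) (α β : ℝ) (ε : ℕ → ℝ) (t : ℕ) (ht : m ≤ t) :
    ∑ i ∈ range m, ε i * F m α β i t = 0 := by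
  apply Finset.sum_eq_zero
  intro b hb
  have h1 := mem_range.mp hb
  have : t ≠ b := by omega
  simp [F, h1, this]

theorem sq_one {x : ℝ} (h : x = 1 ∨ x = -1) : x^2 = 1 := by
  rcases h with h | h <;> rw [h] <;> norm_num

theorem main (m : ℕ) (s : ℝ) (h : SignedPrefixBound (m+2) s) : (m:ℝ) + 5/2 ≤ s^2 ∧ 0 ≤ s := by
  set α := Real.sqrt (5/8) with hα
  set β := Real.sqrt (3/8) with hβ
  have ha : α^2 = 5/8 := Real.sq_sqrt (by norm_num)
  have hb : β^2 = 3/8 := Real.sq_sqrt (by norm_num)
  obtain ⟨ε, hε, hk⟩ := h (m+3) (V m α β) (fun i _ => V_norm m α β (by rw [ha, hb]; norm_num) i)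
  have hs : 0 ≤ s := le_trans (norm_nonneg _) (hk 0 (Nat.zero_le _))
  refine ⟨?_, hs⟩
  have low : ∀ t : Fin m, ∑ i ∈ range (m+2), ε i * F m α β i t.castSucc.castSucc.val = ε t := by
    intro t
    have ht := t.2
    have h1 : t.val ≠ m := by omega
    have h2 : t.val ≠ m + 1 := by omega
    rw [Finset.sum_range_succ, Finset.sum_range_succ]
    have := sum_low m α β ε t.val ht
    simp only [Fin.val_castSucc]
    rw [this]
    simp [F, h1, h2]
  have hm1 : ∑ i ∈ range (m+2), ε i * F m α β i m = (ε m + ε (m+1)) * α := by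
    rw [Finset.sum_range_succ, Finset.sum_range_succ, sum_high m α β ε m le_rfl]
    simp [F]; ring
  have hm2 : ∑ i ∈ range (m+2), ε i * F m α β i (m+1) = (ε m - ε (m+1)) * β := by
    rw [Finset.sum_range_succ, Finset.sum_range_succ, sum_high m α β ε (m+1) (by omega)]
    simp [F]; ring
  have lowsum : ∑ t : Fin m, (ε t)^2 = m := by
    have h1 : ∀ t : Fin m, (ε t)^2 = 1 := fun t => sq_one (hε t)
    simp [h1]
  by_cases hc : ε m = ε (m+1)
  · have h2 := hk (m+2) (by omega)
    have h3 : ‖∑ i ∈ range (m+2), ε i • V m α β i‖^2 = m + 5/2 := by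
      rw [normsq_split]
      simp only [coord]
      rw [Finset.sum_congr rfl (fun t _ => by rw [low t]), lowsum]
      simp only [Fin.val_castSucc, Fin.val_last]
      rw [hm1, hm2, hc]
      have := sq_one (hε (m+1))
      have e : ((ε (m+1) + ε (m+1)) * α)^2 = 4 * (ε (m+1))^2 * α^2 := by ring
      rw [e, this, ha]; ring
    rw [← h3]
    exact pow_le_pow_left₀ (norm_nonneg _) h2 2
  · have hc' : ε (m+1) = - ε m := by
      rcases hε m with h1 | h1 <;> rcases hε (m+1) with h2 | h2
      · exact absurd (h1.trans h2.symm) hc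
      · rw [h1, h2]
      · rw [h1, h2]; norm_num
      · exact absurd (h1.trans h2.symm) hc
    have h2 := hk (m+3) le_rfl
    have low3 : ∀ t : Fin m, ∑ i ∈ range (m+3), ε i * F m α β i t.castSucc.castSucc.val = ε t := by
      intro t
      have ht := t.2
      have h1 : t.val ≠ m := by omega
      rw [Finset.sum_range_succ, low t]
      simp [F, h1]
    have h3 : ‖∑ i ∈ range (m+3), ε i • V m α β i‖^2 = m + 5/2 := by
      rw [normsq_split]
      simp only [coord]
      rw [Finset.sum_congr rfl (fun t _ => by rw [low3 t]), lowsum]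
      simp only [Fin.val_castSucc, Fin.val_last]
      rw [Finset.sum_range_succ, hm1, Finset.sum_range_succ, hm2, hc']
      have e1 : F m α β (m+2) m = 1 := by simp [F]
      have e2 : F m α β (m+2) (m+1) = 0 := by simp [F]
      rw [e1, e2]
      have q1 := sq_one (hε m)
      have q2 := sq_one (hε (m+2))
      have e : (m:ℝ) + ((ε m + -ε m) * α + ε (m+2) * 1)^2 + ((ε m - -ε m) * β + ε (m+2) * 0)^2
          = m + (ε (m+2))^2 + 4 * (ε m)^2 * β^2 := by ring
      rw [e, q1, q2, hb]; ring
    rw [← h3]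
    exact pow_le_pow_left₀ (norm_nonneg _) h2 2

end Vale.P262
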